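import Mathlib
import Vale.Agent.P314.Defs
import Vale.Agent.P314.Program

namespace Vale.Agent.Results.P314.Hitting

open Vale.Agent.P314 Computability

/-- For every field `F` with a binary encoding there is a family `H n s` of hitting sets for the
noncommutative formulas of size at most `s` in `n` variables, and a deterministic machine (finite
control, finitely many stacks, all over finite alphabets) that writes down `H n s` from the unary
input `(n, s)` in polynomial time. -/
theorem result (F : Type) [Field F] (e : Encoding F Bool) :
    ∃ H : (n : ℕ) → (s : ℕ) → List (Point F n),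
      (∀ n s : ℕ, IsHittingSet s (H n s)) ∧
      ∃ M : Turing.TM2ComputableInPolyTime inputCode (id : List Γ' → List Γ')
          (fun p : ℕ × ℕ => setCode e (H p.1 p.2)),
        ∀ k : M.tm.K, Finite (M.tm.Γ k) := by
  refine ⟨hset F, hset_hitting, ?_⟩
  obtain ⟨Q, hQ⟩ := cost_main (entryCode e 0) (entryCode e 1)
  refine ⟨
    { tm := machine (pMain (entryCode e 0) (entryCode e 1))
      inputAlphabet := Equiv.refl _
      outputAlphabet := Equiv.refl _
      time := Q
      outputsFun := fun p => ?_ }, fun _ => (inferInstance : Finite Γ')⟩
  have h := machine_outputs (pMain (entryCode e 0) (entryCode e 1)) (inputCode p) _ _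
    (den_main _ _ p) (hQ p)
  rw [← setCode_hset] at h
  have e1 : ∀ l : List Γ', List.map (Equiv.refl Γ').invFun l = l := fun l => List.map_id l
  exact (e1 (inputCode p)).symm ▸ (e1 (setCode e (hset F p.1 p.2))).symm ▸ Classical.choice h

end Vale.Agent.Results.P314.Hitting
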